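import Vale.Agent.P156.H894.FE8Q
import Vale.Agent.P156.H894.FE8M
import Vale.Agent.P156.H520.FE6c

/-! # The second moment of the coordinate over the directed edges is at most `C V_G` -/

open MeasureTheory Filter Topology Matrix Finset

namespace Vale.Agent.P156.FE

noncomputable section

lemma one_mem_ZZs {n d : ℕ} {G : SimpleGraph (Fin n)} (hG : G ∈ regularGraphs n d)
    {t : Fin n × (Fin d → Fin n)} (ht : t ∈ B.stars d G) : one G t ∈ ZZs n d 1 := by
  have hs : (fun _ : Fin 1 => t) ∈ B.mstars d 1 G := B.mem_mstars.2 fun _ => ht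
  refine H520.good_ZZs hG hs (B.good_of_disjoint hs fun i j hij => ?_)
  exact absurd (Subsingleton.elim i j) hij

lemma hc_one {n d : ℕ} (G : SimpleGraph (Fin n)) (t : Fin n × (Fin d → Fin n)) (z : ℂ)
    (k : Fin d) : hc G z (t.1, t.2 k) = leadMat (one G t) z (0, k) (0, k) := by
  unfold leadMat
  have h : centres (one G t) = {t.1} := by
    classical
    unfold centres one B.mk
    ext v
    simp
  rw [h]
  rfl

/-- The second moment of the coordinate is bounded by the global observable. -/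
theorem vG_le {d : ℕ} {a b : ℝ} (hd : 1 ≤ d) (hT : SpecT d a b) (hComp : SpecComp d a b) :
    ∃ C : ℝ, 1 ≤ C ∧ ∀ n : ℕ, 0 < n → ∀ G ∈ regularGraphs n d, ∀ E ∈ Set.Icc a b,
      ∀ η : ℝ, 0 < η → η ≤ 1 → vG d (zz E η) G ≤ C * VV d G (zz E η) := by
  obtain ⟨C₁, hC₁, hT⟩ := hT
  obtain ⟨C₂, hC₂, hComp⟩ := hComp 1
  refine ⟨C₁ ^ 2 * C₂, one_le_mul_of_one_le_of_one_le (one_le_pow₀ hC₁) hC₂, ?_⟩
  intro n _ G hG E hE η hη hη1
  set k : Fin d := ⟨0, hd⟩ with hk
  have h1 : vG d (zz E η) G =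
      avg (B.stars d G) (fun t => ‖TT (mm d (zz E η)) (hc G (zz E η) (t.1, t.2 k))‖ ^ 2) := by
    rw [B.avg_stars_edge (B.mem_regularGraphs.1 hG) k
      (fun e => ‖TT (mm d (zz E η)) (hc G (zz E η) e)‖ ^ 2)]
    rfl
  rw [h1]
  unfold VV
  rw [← H490.avg_mul_left]
  refine H490.avg_mono fun t ht => ?_
  have hmem := one_mem_ZZs hG ht
  have hT1 := (hT E hE η hη hη1 _ _ rfl rfl).1 (hc G (zz E η) (t.1, t.2 k))
    (H801.im_resD_diag_nonneg (adj_isHermitian G) _ E hη _)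
  have hc1 := (hComp n (one G t) hmem E hE η hη hη1).1
  have h2 : ‖TT (mm d (zz E η)) (hc G (zz E η) (t.1, t.2 k))‖ ^ 2 ≤
      C₁ ^ 2 * (min 1 ‖hc G (zz E η) (t.1, t.2 k) - mm d (zz E η)‖) ^ 2 := by
    rw [← mul_pow]
    exact pow_le_pow_left₀ (norm_nonneg _) hT1.2 2
  have h3 : (min 1 ‖hc G (zz E η) (t.1, t.2 k) - mm d (zz E η)‖) ^ 2 ≤
      rho (one G t) (zz E η) := by
    unfold rho
    refine le_min ?_ ?_
    · exact pow_le_one₀ (le_min zero_le_one (norm_nonneg _)) (min_le_left _ _)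
    · refine (pow_le_pow_left₀ (le_min zero_le_one (norm_nonneg _)) (min_le_right _ _) 2).trans ?_
      have h4 : ‖hc G (zz E η) (t.1, t.2 k) - mm d (zz E η)‖ ^ 2 =
          ‖leadMat (one G t) (zz E η) (0, k) (0, k) -
            (if ((0 : Fin 1), k) = (0, k) then mm d (zz E η) else 0)‖ ^ 2 := by
        rw [if_pos rfl, hc_one]
      rw [h4]
      refine le_trans ?_ (Finset.single_le_sum (f := fun x => ∑ y,
        ‖leadMat (one G t) (zz E η) x y - (if x = y then mm d (zz E η) else 0)‖ ^ 2)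
        (fun x _ => Finset.sum_nonneg fun y _ => sq_nonneg _) (Finset.mem_univ ((0 : Fin 1), k)))
      exact Finset.single_le_sum (f := fun y =>
        ‖leadMat (one G t) (zz E η) ((0 : Fin 1), k) y -
          (if ((0 : Fin 1), k) = y then mm d (zz E η) else 0)‖ ^ 2)
        (fun y _ => sq_nonneg _) (Finset.mem_univ ((0 : Fin 1), k))
  have hC0 : 0 ≤ C₁ ^ 2 := sq_nonneg _
  calc _ ≤ C₁ ^ 2 * (min 1 ‖hc G (zz E η) (t.1, t.2 k) - mm d (zz E η)‖) ^ 2 := h2
    _ ≤ C₁ ^ 2 * (C₂ * dev (one G t) (zz E η)) :=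
        mul_le_mul_of_nonneg_left (h3.trans hc1) hC0
    _ = C₁ ^ 2 * C₂ * dev (one G t) (zz E η) := by ring

end

end Vale.Agent.P156.FE
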